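import Vale.Agent.P273.H857.Def

/-!
The primitive `P k B b` near a root `b j`, without injectivity of `b` (only `b l ≠ b j` for
`l ≠ j`): `P k B b (b j + w) = P k B b (b j) + G (br B j w)` with `G` analytic at `0`, `G 0 = 0`.
-/

open Complex Set Filter Topology MeasureTheory
open scoped ContDiff

namespace Vale.Agent.P273.H340

open H857

noncomputable section

variable {k : ℕ} {B : Finset (Fin 6)} {b : C6} {x : ℂ} {g : ℝ → ℝ} {j : Fin 6}

/-- the path that starts later -/
def shg (g : ℝ → ℝ) (s t : ℝ) : ℝ := g (s + t) - g s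

theorem isPath_shg (hg : IsPath g) (s : ℝ) : IsPath (shg g s) := by
  refine ⟨?_, by simp [shg], ?_⟩
  · unfold shg
    exact (hg.smooth.comp (contDiff_const.add contDiff_id)).sub contDiff_const
  · obtain ⟨K, hK⟩ := hg.bdd
    refine ⟨K, fun t => ?_⟩
    have e : deriv (shg g s) t = deriv g (s + t) := by
      unfold shg
      rw [deriv_sub_const]
      exact deriv_comp_const_add g s t
    rw [e]; exact hK _

theorem deriv_shg (g : ℝ → ℝ) (s t : ℝ) : deriv (shg g s) t = deriv g (s + t) := by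
  unfold shg
  rw [deriv_sub_const]
  exact deriv_comp_const_add g s t

theorem gam_shg (x : ℂ) (g : ℝ → ℝ) (s t : ℝ) :
    gam (gam x g s) (shg g s) t = gam x g (s + t) := by
  simp only [gam, shg]
  push_cast
  ring

theorem adm_shg (h : Adm B b x g) {s : ℝ} (hs : 0 ≤ s) : Adm B b (gam x g s) (shg g s) := by
  refine ⟨isPath_shg h.1 s, fun l hl hr => ?_⟩
  rw [sub_re, gam_re] at hr
  have h1 : b l ≠ x := by
    rintro h1
    have h2 : s = 0 := by
      have : (b l).re = x.re := by rw [h1]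
      linarith
    apply hl
    rw [h2, gam_zero h.1.zero, h1]
  have h2 := h.2 l h1 (by rw [sub_re]; linarith)
  have e : s + (b l - gam x g s).re = (b l - x).re := by
    rw [sub_re, sub_re, gam_re]; ring
  simp only [shg, e]
  rw [sub_im, gam_im]
  rw [sub_im] at h2
  exact ⟨fun h3 => by linarith [h2.1 h3], fun h3 => by linarith [h2.2 h3]⟩

theorem igd_shg (k : ℕ) (B : Finset (Fin 6)) (b : C6) (x : ℂ) (g : ℝ → ℝ) (s t : ℝ) :
    igd k B b (gam x g s) (shg g s) t = igd k B b x g (s + t) := by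
  unfold igd
  rw [gam_shg, deriv_shg]

theorem PG_shg (k : ℕ) (B : Finset (Fin 6)) (b : C6) (x : ℂ) (g : ℝ → ℝ) (s : ℝ) :
    PG k B b (gam x g s) (shg g s) = -∫ t in Ioi s, igd k B b x g t := by
  unfold PG
  congr 1
  simp only [igd_shg]
  have h := (measurePreserving_add_left (volume : Measure ℝ) s).setIntegral_preimage_emb
    (measurableEmbedding_addLeft s) (igd k B b x g) (Ioi s)
  rw [← h]
  congr 2
  ext t; simp

/-- along the path the primitive tends to its value at the start -/
theorem tendsto_PG (hI : IntegrableOn (igd k B b x g) (Ioi 0)) :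
    Tendsto (fun n : ℕ => PG k B b (gam x g (1 / ((n : ℝ) + 1))) (shg g (1 / ((n : ℝ) + 1)))) atTop
      (𝓝 (PG k B b x g)) := by
  simp only [PG_shg]
  have hU : (⋃ n : ℕ, Ioi (1 / ((n : ℝ) + 1))) = Ioi (0 : ℝ) := by
    ext t
    simp only [mem_iUnion, mem_Ioi]
    constructor
    · rintro ⟨n, hn⟩
      exact lt_trans (by positivity) hn
    · intro ht
      exact exists_nat_one_div_lt ht
  have h := tendsto_setIntegral_of_monotone (μ := (volume : Measure ℝ)) (f := igd k B b x g)
    (s := fun n : ℕ => Ioi (1 / ((n : ℝ) + 1))) (fun _ => measurableSet_Ioi) (by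
      intro m n hmn
      refine Ioi_subset_Ioi ?_
      gcongr) (by rw [hU]; exact hI)
  rw [hU] at h
  exact h.neg

/-- the slit disc -/
def SD (B : Finset (Fin 6)) (j : Fin 6) (ρ : ℝ) : Set ℂ := Metric.ball 0 ρ ∩ Sb B j

theorem isOpen_SD (B : Finset (Fin 6)) (j : Fin 6) (ρ : ℝ) : IsOpen (SD B j ρ) :=
  Metric.isOpen_ball.inter (isOpen_Sb B j)

/-- the centre of the star -/
def cen (B : Finset (Fin 6)) (j : Fin 6) (ρ : ℝ) : ℂ := if j ∈ B then -(ρ / 2 * I) else ρ / 2 * I

theorem cen_mem {ρ : ℝ} (hρ : 0 < ρ) : cen B j ρ ∈ SD B j ρ := by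
  have h1 : ‖(ρ / 2 * I : ℂ)‖ = ρ / 2 := by
    rw [norm_mul, norm_I, mul_one]
    have : ((ρ : ℂ) / 2) = ((ρ / 2 : ℝ) : ℂ) := by push_cast; ring
    rw [this, norm_real, Real.norm_eq_abs, abs_of_pos (by positivity)]
  refine ⟨?_, ?_⟩
  · rw [mem_ball_zero_iff, cen]
    split_ifs
    · rw [norm_neg, h1]; linarith
    · rw [h1]; linarith
  · rw [mem_Sb_iff, cen]
    intro _
    split_ifs with h
    · refine ⟨fun _ => ?_, fun h2 => absurd h h2⟩
      simp [hρ]
    · refine ⟨fun h2 => absurd h2 h, fun _ => ?_⟩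
      simp [hρ]

theorem starConvex_Sb (B : Finset (Fin 6)) (j : Fin 6) {ρ : ℝ} (hρ : 0 < ρ) :
    StarConvex ℝ (cen B j ρ) (Sb B j) := by
  rw [starConvex_iff_forall_pos (cen_mem hρ).2]
  intro w hw p q hp hq _
  rw [mem_Sb_iff] at hw ⊢
  intro h0
  have hre : (p • cen B j ρ + q • w).re = q * w.re := by
    simp only [add_re, real_smul, re_ofReal_mul, cen]
    split_ifs <;> simp
  have him : (p • cen B j ρ + q • w).im = p * (cen B j ρ).im + q * w.im := by
    simp only [add_im, real_smul, im_ofReal_mul]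
  rw [hre] at h0
  have hw0 : w.re = 0 := by
    rcases mul_eq_zero.1 h0 with h | h
    · exact absurd h hq.ne'
    · exact h
  obtain ⟨h1, h2⟩ := hw hw0
  rw [him]
  constructor
  · intro h
    have h3 := h1 h
    have h4 : (cen B j ρ).im = -(ρ / 2) := by simp [cen, h]
    rw [h4]
    nlinarith [mul_pos hp (half_pos hρ), mul_pos hq (neg_pos.2 h3)]
  · intro h
    have h3 := h2 h
    have h4 : (cen B j ρ).im = ρ / 2 := by simp [cen, h]
    rw [h4]
    nlinarith [mul_pos hp (half_pos hρ), mul_pos hq h3]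

theorem isPreconnected_SD (B : Finset (Fin 6)) (j : Fin 6) {ρ : ℝ} (hρ : 0 < ρ) :
    IsPreconnected (SD B j ρ) := by
  have h := cen_mem (B := B) (j := j) hρ
  have h1 : StarConvex ℝ (cen B j ρ) (SD B j ρ) :=
    ((convex_ball (0 : ℂ) ρ).starConvex h.1).inter (starConvex_Sb B j hρ)
  exact (h1.isPathConnected h).isConnected.isPreconnected

/-- the conditions on a small vector -/
def Small (b : C6) (j : Fin 6) (w : ℂ) : Prop :=
  ∀ l, l ≠ j → ((b l).re ≠ (b j).re → |w.re| < |(b l).re - (b j).re|) ∧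
    ((b l).re = (b j).re → |w.im| < |(b l).im - (b j).im|)

theorem small_eventually (hne : ∀ l, l ≠ j → b l ≠ b j) : ∀ᶠ w in 𝓝 (0 : ℂ), Small b j w := by
  unfold Small
  rw [Filter.eventually_all]
  intro l
  by_cases hl : l = j
  · exact Filter.Eventually.of_forall fun w h => absurd hl h
  have c1 : Tendsto (fun w : ℂ => |w.re|) (𝓝 0) (𝓝 0) := by
    have : Continuous fun w : ℂ => |w.re| := by fun_prop
    simpa using this.tendsto 0
  have c2 : Tendsto (fun w : ℂ => |w.im|) (𝓝 0) (𝓝 0) := by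
    have : Continuous fun w : ℂ => |w.im| := by fun_prop
    simpa using this.tendsto 0
  by_cases h : (b l).re = (b j).re
  · have h2 : (b l).im ≠ (b j).im := fun h2 => hne l hl (Complex.ext h h2)
    have h3 : 0 < |(b l).im - (b j).im| := abs_pos.2 (sub_ne_zero.2 h2)
    filter_upwards [c2.eventually_lt_const h3] with w hw _
    exact ⟨fun h4 => absurd h h4, fun _ => hw⟩
  · have h3 : 0 < |(b l).re - (b j).re| := abs_pos.2 (sub_ne_zero.2 h)
    filter_upwards [c1.eventually_lt_const h3] with w hw _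
    exact ⟨fun _ => hw, fun h4 => absurd h4 h⟩

theorem Small.ne_root {w : ℂ} (hs : Small b j w) (hw : w ≠ 0) (l : Fin 6) : b l ≠ b j + w := by
  intro h
  rcases eq_or_ne l j with rfl | hl
  · exact hw (by simpa using h)
  obtain ⟨h1, h2⟩ := hs l hl
  have e1 : (b l).re - (b j).re = w.re := by rw [h, add_re]; ring
  have e2 : (b l).im - (b j).im = w.im := by rw [h, add_im]; ring
  rw [e1] at h1
  rw [e2] at h2
  by_cases h3 : (b l).re = (b j).re
  · exact lt_irrefl _ (h2 h3)
  · exact lt_irrefl _ (h1 h3)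

theorem Small.ok {w : ℂ} (hok : OK B b (b j)) (hne : ∀ l, l ≠ j → b l ≠ b j)
    (hs : Small b j w) (hw : w ∈ Sb B j) : OK B b (b j + w) := by
  rw [mem_Sb_iff] at hw
  -- a label different from `j` to the right of `b j + w` is to the right of or above `b j`
  refine ⟨fun l hl m hm e hx => ?_, fun l hl e => ?_⟩
  · rw [add_re] at hx
    by_cases h1 : (b l).re = (b j).re
    · -- on the vertical line through `b j`
      have h2 : l = j ∨ (b j).im < (b l).im := by
        rcases eq_or_ne l j with h | h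
        · exact Or.inl h
        · exact Or.inr ((hok.2 l (hne l h) h1).1 hl)
      have h3 : m = j ∨ (b m).im < (b j).im := by
        rcases eq_or_ne m j with h | h
        · exact Or.inl h
        · exact Or.inr ((hok.2 m (hne m h) (e ▸ h1)).2 hm)
      rcases h2 with h2 | h2
      · rcases h3 with h3 | h3
        · rw [h2] at hl; rw [h3] at hm; exact absurd hl hm
        · rw [h2]; exact h3
      · rcases h3 with h3 | h3
        · rw [h3]; exact h2
        · exact h3.trans h2
    · have hlj : l ≠ j := fun h => h1 (by rw [h])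
      have h2 := (hs l hlj).1 h1
      have h3 : (b j).re < (b l).re := by
        by_contra h4
        have h5 : (b l).re < (b j).re := lt_of_le_of_ne (not_lt.1 h4) h1
        rw [abs_of_neg (by linarith : (b l).re - (b j).re < 0)] at h2
        have h6 := neg_abs_le w.re
        linarith
      exact hok.1 l hl m hm e h3
  · rw [add_re] at e
    rcases eq_or_ne l j with rfl | hlj
    · have h0 : w.re = 0 := by linarith
      obtain ⟨h1, h2⟩ := hw h0
      rw [add_im]
      exact ⟨fun h => by linarith [h1 h], fun h => by linarith [h2 h]⟩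
    · by_cases h1 : (b l).re = (b j).re
      · have h2 := (hs l hlj).2 h1
        obtain ⟨h3, h4⟩ := hok.2 l (hne l hlj) h1
        rw [add_im]
        have h5 := neg_abs_le w.im
        have h6 := le_abs_self w.im
        constructor
        · intro h
          have h7 := h3 h
          rw [abs_of_pos (by linarith : 0 < (b l).im - (b j).im)] at h2
          linarith
        · intro h
          have h7 := h4 h
          rw [abs_of_neg (by linarith : (b l).im - (b j).im < 0)] at h2
          linarith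
      · exfalso
        have h2 := (hs l hlj).1 h1
        have h3 : (b l).re - (b j).re = w.re := by linarith
        rw [h3] at h2
        exact lt_irrefl _ h2

theorem hasDerivAt_br {l : Fin 6} {z : ℂ} (h : z ∈ Sb B l) :
    HasDerivAt (br B l) (1 / (2 * br B l z)) z := by
  by_cases hl : l ∈ B
  · have e : br B l = ru := by funext w; simp [br, hl]
    rw [Sb, if_pos hl] at h
    rw [e]; exact hasDerivAt_ru h
  · have e : br B l = rt := by funext w; simp [br, hl]
    rw [Sb, if_neg hl] at h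
    rw [e]; exact hasDerivAt_rt h

theorem tendsto_br_zero (B : Finset (Fin 6)) (l : Fin 6) : Tendsto (br B l) (𝓝 0) (𝓝 0) := by
  rw [tendsto_zero_iff_norm_tendsto_zero]
  simp only [norm_br]
  have : Continuous fun z : ℂ => Real.sqrt ‖z‖ := by fun_prop
  simpa using this.tendsto 0

theorem sub_mem_Sb (hok : OK B b (b j)) (hne : ∀ l, l ≠ j → b l ≠ b j) {l : Fin 6} (hl : l ≠ j) :
    b j - b l ∈ Sb B l := by
  rw [mem_Sb_iff]
  intro h
  rw [sub_re] at h
  obtain ⟨h1, h2⟩ := hok.2 l (hne l hl) (by linarith)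
  rw [sub_im]
  exact ⟨fun h3 => by linarith [h1 h3], fun h3 => by linarith [h2 h3]⟩

/-- the factor without the root -/
theorem analyticAt_sqj (hok : OK B b (b j)) (hne : ∀ l, l ≠ j → b l ≠ b j) :
    AnalyticAt ℂ (sqj j B b) (b j) := by
  unfold sqj
  refine Finset.analyticAt_fun_prod _ fun l hl => ?_
  have hl' : l ≠ j := (Finset.mem_erase.1 hl).1
  have h1 : AnalyticAt ℂ (fun z : ℂ => z - b l) (b j) := analyticAt_id.sub analyticAt_const
  exact (analyticAt_br (sub_mem_Sb hok hne hl')).comp_of_eq h1 rfl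

theorem sqj_ne_zero (hne : ∀ l, l ≠ j → b l ≠ b j) : sqj j B b (b j) ≠ 0 := by
  rw [sqj, Finset.prod_ne_zero_iff]
  intro l hl
  exact br_ne_zero (sub_ne_zero.2 (hne l (Finset.mem_erase.1 hl).1).symm)

theorem exists_G (k : ℕ) (hok : OK B b (b j)) (hne : ∀ l, l ≠ j → b l ≠ b j) :
    ∃ G : ℂ → ℂ, G 0 = 0 ∧
      ∀ᶠ v in 𝓝 (0 : ℂ), HasDerivAt G (2 * ((b j + v ^ 2) ^ k / sqj j B b (b j + v ^ 2))) v := by
  have h1 : AnalyticAt ℂ (fun z : ℂ => z ^ k / sqj j B b z) (b j) :=
    (analyticAt_id.pow k).div (analyticAt_sqj hok hne) (sqj_ne_zero hne)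
  have h2 : AnalyticAt ℂ (fun v : ℂ => b j + v ^ 2) 0 :=
    analyticAt_const.add (analyticAt_id.pow 2)
  have h3 : AnalyticAt ℂ (fun v : ℂ => 2 * ((b j + v ^ 2) ^ k / sqj j B b (b j + v ^ 2))) 0 :=
    analyticAt_const.mul (h1.comp_of_eq h2 (by simp))
  obtain ⟨r, hr, h4⟩ := Metric.eventually_nhds_iff_ball.1 h3.eventually_analyticAt
  have h5 : DifferentiableOn ℂ
      (fun v : ℂ => 2 * ((b j + v ^ 2) ^ k / sqj j B b (b j + v ^ 2))) (Metric.ball 0 r) :=
    fun v hv => (h4 v hv).differentiableAt.differentiableWithinAt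
  obtain ⟨G, hG0, hG⟩ := h5.isExactOn_ball.with_val_at 0 0
  exact ⟨G, hG0, Metric.eventually_nhds_iff_ball.2 ⟨r, hr, hG⟩⟩

/-- **the structure at a root**, for fixed `b`, without injectivity -/
theorem root_struct (hok : OK B b (b j)) (hne : ∀ l, l ≠ j → b l ≠ b j)
    (hD : ∀ x, OK B b x → (∀ l, b l ≠ x) → HasDerivAt (P k B b) (x ^ k / sq B b x) x)
    (hE : ∀ x g, Adm B b x g → P k B b x = PG k B b x g)
    (hI : ∀ x g, Adm B b x g → IntegrableOn (igd k B b x g) (Ioi 0))
    (hX : ∃ g, Adm B b (b j) g) {G : ℂ → ℂ} (hG0 : G 0 = 0)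
    (hG : ∀ᶠ v in 𝓝 (0 : ℂ), HasDerivAt G (2 * ((b j + v ^ 2) ^ k / sqj j B b (b j + v ^ 2))) v) :
    ∀ᶠ w in 𝓝[Sb B j] 0, P k B b (b j + w) = P k B b (b j) + G (br B j w) := by
  have h1 : ∀ᶠ w in 𝓝 (0 : ℂ), Small b j w ∧
      HasDerivAt G (2 * ((b j + br B j w ^ 2) ^ k / sqj j B b (b j + br B j w ^ 2))) (br B j w) :=
    (small_eventually hne).and ((tendsto_br_zero B j).eventually hG)
  obtain ⟨ρ, hρ, h2⟩ := Metric.eventually_nhds_iff_ball.1 h1
  have hd : ∀ w ∈ SD B j ρ, HasDerivAt (fun w => P k B b (b j + w) - G (br B j w)) 0 w := by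
    rintro w ⟨hw1, hw2⟩
    obtain ⟨hs, hg⟩ := h2 w hw1
    have hw0 : w ≠ 0 := Sb_ne_zero hw2
    have d1 : HasDerivAt (fun w => P k B b (b j + w))
        ((b j + w) ^ k / sq B b (b j + w)) w := by
      have := hD (b j + w) (hs.ok hok hne hw2) (hs.ne_root hw0)
      exact this.comp_const_add (b j) w
    have e2 : br B j w ^ 2 = w := by rw [pow_two, br_mul_self]
    rw [e2] at hg
    have d2 := hg.comp w (hasDerivAt_br hw2)
    have d3 := d1.sub d2
    have e3 : (b j + w) ^ k / sq B b (b j + w) -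
        2 * ((b j + w) ^ k / sqj j B b (b j + w)) * (1 / (2 * br B j w)) = 0 := by
      have e4 : sq B b (b j + w) = br B j w * sqj j B b (b j + w) := by
        rw [sq_eq j, add_sub_cancel_left]
      rw [e4]
      have n1 : br B j w ≠ 0 := br_ne_zero hw0
      by_cases n2 : sqj j B b (b j + w) = 0
      · rw [n2]; simp
      · field_simp
        ring
    rw [e3] at d3
    exact d3
  obtain ⟨a, ha⟩ := (isOpen_SD B j ρ).exists_is_const_of_deriv_eq_zero (isPreconnected_SD B j hρ)
    (fun w hw => (hd w hw).differentiableAt.differentiableWithinAt) (fun w hw => (hd w hw).deriv)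
  obtain ⟨g, hg⟩ := hX
  -- the value of the constant
  have hlim : Tendsto (fun n : ℕ => P k B b (gam (b j) g (1 / ((n : ℝ) + 1)))) atTop
      (𝓝 (P k B b (b j))) := by
    have := tendsto_PG (hI _ _ hg)
    rw [hE _ _ hg]
    refine this.congr fun n => ?_
    exact (hE _ _ (adm_shg hg (by positivity))).symm
  have hs0 : Tendsto (fun n : ℕ => 1 / ((n : ℝ) + 1)) atTop (𝓝 0) :=
    tendsto_one_div_add_atTop_nhds_zero_nat
  have hw : Tendsto (fun n : ℕ => gam (b j) g (1 / ((n : ℝ) + 1)) - b j) atTop (𝓝 0) := by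
    have hc : Continuous fun t : ℝ => gam (b j) g t - b j := by
      unfold gam
      have := hg.1.smooth.continuous
      fun_prop
    have h3 := (hc.tendsto 0).comp hs0
    have e : gam (b j) g 0 - b j = 0 := by rw [gam_zero hg.1.zero, sub_self]
    rw [e] at h3
    exact h3
  have hmem : ∀ᶠ n : ℕ in atTop, gam (b j) g (1 / ((n : ℝ) + 1)) - b j ∈ SD B j ρ := by
    filter_upwards [hw.eventually (Metric.ball_mem_nhds 0 hρ)] with n hn
    refine ⟨hn, mem_Sb_of_re ?_⟩
    rw [sub_re, gam_re]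
    have : (0 : ℝ) < 1 / ((n : ℝ) + 1) := by positivity
    intro h
    linarith
  have hcont : ContinuousAt G 0 := by
    have := hG.self_of_nhds
    exact this.continuousAt
  have hlim2 : Tendsto (fun n : ℕ => P k B b (gam (b j) g (1 / ((n : ℝ) + 1))) -
      G (br B j (gam (b j) g (1 / ((n : ℝ) + 1)) - b j))) atTop (𝓝 (P k B b (b j) - 0)) := by
    refine hlim.sub ?_
    have h3 : Tendsto (fun n : ℕ => br B j (gam (b j) g (1 / ((n : ℝ) + 1)) - b j)) atTop (𝓝 0) :=
      (tendsto_br_zero B j).comp hw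
    have h4 := hcont.tendsto.comp h3
    rw [hG0] at h4
    exact h4
  have hea : a = P k B b (b j) := by
    have h3 : Tendsto (fun n : ℕ => P k B b (gam (b j) g (1 / ((n : ℝ) + 1))) -
        G (br B j (gam (b j) g (1 / ((n : ℝ) + 1)) - b j))) atTop (𝓝 a) := by
      refine (tendsto_congr' ?_).2 tendsto_const_nhds
      filter_upwards [hmem] with n hn
      have := ha _ hn
      simp only [add_sub_cancel] at this
      exact this
    have := tendsto_nhds_unique h3 hlim2
    rw [this, sub_zero]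
  rw [eventually_nhdsWithin_iff]
  filter_upwards [Metric.ball_mem_nhds (0 : ℂ) hρ] with w hw1 hw2
  have h3 := ha w ⟨hw1, hw2⟩
  rw [hea] at h3
  linear_combination h3

theorem analyticAt_of_hasDerivAt {G f : ℂ → ℂ} {z : ℂ} (h : ∀ᶠ v in 𝓝 z, HasDerivAt G (f v) v) :
    AnalyticAt ℂ G z := by
  obtain ⟨r, hr, h1⟩ := Metric.eventually_nhds_iff_ball.1 h
  have h2 : DifferentiableOn ℂ G (Metric.ball z r) :=
    fun v hv => (h1 v hv).differentiableAt.differentiableWithinAt
  exact h2.analyticAt (Metric.ball_mem_nhds z hr)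

/-- a label at the starting point is not counted -/
theorem adm_insert (b : C6) (j : Fin 6) (g : ℝ → ℝ) (B : Finset (Fin 6)) :
    Adm (insert j B) b (b j) g ↔ Adm B b (b j) g := by
  unfold Adm
  refine and_congr_right fun _ => forall_congr' fun l => ?_
  refine imp_congr_right fun hl => imp_congr_right fun _ => ?_
  have hlj : l ≠ j := by rintro rfl; exact hl rfl
  simp [Finset.mem_insert, hlj]

theorem ok_insert (b : C6) (j : Fin 6) (B : Finset (Fin 6)) (h : OK B b (b j)) :
    OK (insert j B) b (b j) := by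
  refine ⟨fun l hl m hm e hx => ?_, fun l hl e => ?_⟩
  · have hlj : l ≠ j := by rintro rfl; exact lt_irrefl _ hx
    have hmj : m ≠ j := by rintro rfl; exact hm (Finset.mem_insert_self _ _)
    refine h.1 l (by simpa [hlj] using hl) m (fun h1 => hm (Finset.mem_insert_of_mem h1)) e hx
  · have hlj : l ≠ j := by rintro rfl; exact hl rfl
    have := h.2 l hl e
    simpa [Finset.mem_insert, hlj] using this

theorem sqj_insert (j : Fin 6) (B : Finset (Fin 6)) (b : C6) : sqj j (insert j B) b = sqj j B b := by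
  funext z
  unfold sqj
  refine Finset.prod_congr rfl fun l hl => ?_
  have hlj : l ≠ j := (Finset.mem_erase.1 hl).1
  simp [br, Finset.mem_insert, hlj]

theorem br_insert_self (j : Fin 6) (B : Finset (Fin 6)) : br (insert j B) j = ru := by
  funext z; simp [br]

theorem br_of_notMem {j : Fin 6} {B : Finset (Fin 6)} (h : j ∉ B) : br B j = rt := by
  funext z; simp [br, h]

theorem Sb_insert_self (j : Fin 6) (B : Finset (Fin 6)) : Sb (insert j B) j = Su := by
  simp [Sb]

theorem Sb_of_notMem {j : Fin 6} {B : Finset (Fin 6)} (h : j ∉ B) : Sb B j = Sl := by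
  simp [Sb, h]

/-- to the right of the root the two square roots agree -/
theorem sq_insert {z : ℂ} (hj : j ∉ B) (hz : 0 < (z - b j).re) : sq (insert j B) b z = sq B b z := by
  rw [sq_eq j, sq_eq j B, sqj_insert, br_insert_self, br_of_notMem hj, rt_eq_ru hz]

theorem PG_insert (k : ℕ) (hj : j ∉ B) (g : ℝ → ℝ) :
    PG k (insert j B) b (b j) g = PG k B b (b j) g := by
  unfold PG
  congr 1
  refine setIntegral_congr_fun measurableSet_Ioi fun t ht => ?_
  have h : 0 < (gam (b j) g t - b j).re := by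
    rw [sub_re, gam_re]
    have : 0 < t := ht
    linarith
  simp only [igd, sq_insert hj h]

/-- the half period does not see whether its own label is passed from below -/
theorem P_insert_root (hj : j ∉ B) (hX : ∃ g, Adm B b (b j) g)
    (hE : ∀ x g, Adm B b x g → P k B b x = PG k B b x g)
    (hE' : ∀ x g, Adm (insert j B) b x g → P k (insert j B) b x = PG k (insert j B) b x g) :
    P k (insert j B) b (b j) = P k B b (b j) := by
  obtain ⟨g, hg⟩ := hX
  rw [hE _ _ hg, hE' _ _ ((adm_insert b j g B).2 hg), PG_insert k hj]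

/-- what is known about the primitives for fixed `k`, `B`, `b` -/
structure Facts (k : ℕ) (B : Finset (Fin 6)) (b : C6) : Prop where
  der : ∀ x, OK B b x → (∀ l, b l ≠ x) → HasDerivAt (P k B b) (x ^ k / sq B b x) x
  eqP : ∀ x g, Adm B b x g → P k B b x = PG k B b x g
  int : ∀ x g, Adm B b x g → IntegrableOn (igd k B b x g) (Ioi 0)
  ex : ∀ x, OK B b x → ∃ g, Adm B b x g

/-- **the two sides of a root** -/
theorem root_both (hj : j ∉ B) (hok : OK B b (b j)) (hne : ∀ l, l ≠ j → b l ≠ b j)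
    (h : Facts k B b) (h' : Facts k (insert j B) b) :
    ∃ G : ℂ → ℂ, AnalyticAt ℂ G 0 ∧ G 0 = 0 ∧
      (∀ᶠ v in 𝓝 (0 : ℂ), HasDerivAt G (2 * ((b j + v ^ 2) ^ k / sqj j B b (b j + v ^ 2))) v) ∧
      (∀ᶠ w in 𝓝[Sl] 0, P k B b (b j + w) = P k B b (b j) + G (rt w)) ∧
      ∀ᶠ w in 𝓝[Su] 0, P k (insert j B) b (b j + w) = P k B b (b j) + G (ru w) := by
  obtain ⟨G, hG0, hG⟩ := exists_G k hok hne
  refine ⟨G, analyticAt_of_hasDerivAt hG, hG0, hG, ?_, ?_⟩
  · have := root_struct hok hne h.der h.eqP h.int (h.ex _ hok) hG0 hG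
    rwa [Sb_of_notMem hj, br_of_notMem hj] at this
  · have h1 := ok_insert b j B hok
    have := root_struct h1 hne h'.der h'.eqP h'.int (h'.ex _ h1) hG0
      (by rw [sqj_insert]; exact hG)
    rw [Sb_insert_self, br_insert_self, P_insert_root hj (h.ex _ hok) h.eqP h'.eqP] at this
    exact this

theorem tendsto_of_struct {S : Set ℂ} {Q q G : ℂ → ℂ} {a c : ℂ}
    (hG : ContinuousAt G 0) (hG0 : G 0 = 0) (hq : Tendsto q (𝓝 0) (𝓝 0))
    (h : ∀ᶠ w in 𝓝[S] 0, Q (a + w) = c + G (q w)) :
    Tendsto Q (𝓝[{x | x - a ∈ S}] a) (𝓝 c) := by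
  have h1 : Tendsto (fun w => c + G (q w)) (𝓝[S] 0) (𝓝 c) := by
    have h2 : Tendsto (fun w => G (q w)) (𝓝 0) (𝓝 0) := by
      have := hG.tendsto.comp hq
      rwa [hG0] at this
    have h3 := (tendsto_const_nhds (x := c)).add (h2.mono_left (nhdsWithin_le_nhds (s := S)))
    rwa [add_zero] at h3
  have h2 : Tendsto (fun x => Q x) (𝓝[{x | x - a ∈ S}] a) (𝓝 c) := by
    have h3 : Tendsto (fun w => Q (a + w)) (𝓝[S] 0) (𝓝 c) := by
      refine h1.congr' ?_
      filter_upwards [h] with w hw
      exact hw.symm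
    have h4 : Tendsto (fun x : ℂ => x - a) (𝓝[{x | x - a ∈ S}] a) (𝓝[S] 0) := by
      refine tendsto_nhdsWithin_iff.2 ⟨?_, ?_⟩
      · have : Continuous fun x : ℂ => x - a := by fun_prop
        have h5 := this.tendsto a
        rw [sub_self] at h5
        exact h5.mono_left nhdsWithin_le_nhds
      · exact eventually_mem_nhdsWithin
    have h5 := h3.comp h4
    refine h5.congr fun x => ?_
    simp
  exact h2

/-- **the limit at a root** (cut downwards) -/
theorem tendsto_root (hj : j ∉ B) (hok : OK B b (b j)) (hne : ∀ l, l ≠ j → b l ≠ b j)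
    (h : Facts k B b) :
    Tendsto (P k B b) (𝓝[{x | x - b j ∈ Sl}] (b j)) (𝓝 (P k B b (b j))) := by
  obtain ⟨G, hG0, hG⟩ := exists_G k hok hne
  have := root_struct hok hne h.der h.eqP h.int (h.ex _ hok) hG0 hG
  rw [Sb_of_notMem hj, br_of_notMem hj] at this
  have h1 : Tendsto rt (𝓝 0) (𝓝 0) := by
    have := tendsto_br_zero B j
    rwa [br_of_notMem hj] at this
  exact tendsto_of_struct hG.self_of_nhds.continuousAt hG0 h1 this

/-- **the limit at a root** (cut upwards) -/
theorem tendsto_root' (hj : j ∉ B) (hok : OK B b (b j)) (hne : ∀ l, l ≠ j → b l ≠ b j)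
    (h : Facts k B b) (h' : Facts k (insert j B) b) :
    Tendsto (P k (insert j B) b) (𝓝[{x | x - b j ∈ Su}] (b j)) (𝓝 (P k B b (b j))) := by
  obtain ⟨G, hG, hG0, -, -, h2⟩ := root_both hj hok hne h h'
  have h1 : Tendsto ru (𝓝 0) (𝓝 0) := by
    have := tendsto_br_zero (insert j B) j
    rwa [br_insert_self] at this
  exact tendsto_of_struct hG.continuousAt hG0 h1 h2

end

end Vale.Agent.P273.H340
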