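import Vale.Agent.P273.H340.RootLim
import Vale.Agent.P273.H595.Nat
import Vale.Agent.P273.H604.ParHol

/-!
Row GP-ROOT on the natural set: the structure of `P` at a root, uniformly in `b`.
-/

open Complex Set Filter Topology MeasureTheory
open scoped ContDiff

namespace Vale.Agent.P273.H340

open H857 H595

noncomputable section

variable {k : ℕ} {B : Finset (Fin 6)} {b : C6} {x : ℂ} {g : ℝ → ℝ} {j : Fin 6}

/-- **the structure at a root on a given slit disc**, for fixed `b` -/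
theorem root_struct_ball {ρ : ℝ} (hρ : 0 < ρ) (hok : ∀ w ∈ SD B j ρ, OK B b (b j + w))
    (hnr : ∀ w ∈ SD B j ρ, ∀ l, b l ≠ b j + w)
    (hD : ∀ x, OK B b x → (∀ l, b l ≠ x) → HasDerivAt (P k B b) (x ^ k / sq B b x) x)
    (hE : ∀ x g, Adm B b x g → SR b x → P k B b x = PG k B b x g) (hs : SR b (b j))
    (hI : ∀ g, Adm B b (b j) g → IntegrableOn (igd k B b (b j) g) (Ioi 0))
    (hX : ∃ g, Adm B b (b j) g) {G : ℂ → ℂ} (hG0 : G 0 = 0)
    (hG : ∀ w ∈ Metric.ball (0 : ℂ) ρ, HasDerivAt G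
      (2 * ((b j + br B j w ^ 2) ^ k / sqj j B b (b j + br B j w ^ 2))) (br B j w)) :
    ∀ w ∈ SD B j ρ, P k B b (b j + w) = P k B b (b j) + G (br B j w) := by
  have hd : ∀ w ∈ SD B j ρ, HasDerivAt (fun w => P k B b (b j + w) - G (br B j w)) 0 w := by
    rintro w hw
    have hg := hG w hw.1
    have hw0 : w ≠ 0 := Sb_ne_zero hw.2
    have d1 : HasDerivAt (fun w => P k B b (b j + w))
        ((b j + w) ^ k / sq B b (b j + w)) w := by
      have := hD (b j + w) (hok w hw) (hnr w hw)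
      exact this.comp_const_add (b j) w
    have e2 : br B j w ^ 2 = w := by rw [pow_two, br_mul_self]
    rw [e2] at hg
    have d2 := hg.comp w (hasDerivAt_br hw.2)
    have d3 := d1.sub d2
    have e3 : (b j + w) ^ k / sq B b (b j + w) -
        2 * ((b j + w) ^ k / sqj j B b (b j + w)) * (1 / (2 * br B j w)) = 0 := by
      have e4 : sq B b (b j + w) = br B j w * sqj j B b (b j + w) := by
        rw [sq_eq j, add_sub_cancel_left]
      rw [e4]
      have n1 : br B j w ≠ 0 := br_ne_zero hw0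
      by_cases n2 : sqj j B b (b j + w) = 0
      · rw [n2]; simp
      · field_simp
        ring
    rw [e3] at d3
    exact d3
  obtain ⟨a, ha⟩ := (isOpen_SD B j ρ).exists_is_const_of_deriv_eq_zero (isPreconnected_SD B j hρ)
    (fun w hw => (hd w hw).differentiableAt.differentiableWithinAt) (fun w hw => (hd w hw).deriv)
  obtain ⟨g, hg⟩ := hX
  have hs0 : Tendsto (fun n : ℕ => 1 / ((n : ℝ) + 1)) atTop (𝓝 0) :=
    tendsto_one_div_add_atTop_nhds_zero_nat
  have hw : Tendsto (fun n : ℕ => gam (b j) g (1 / ((n : ℝ) + 1)) - b j) atTop (𝓝 0) := by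
    have hc : Continuous fun t : ℝ => gam (b j) g t - b j := by
      unfold gam
      have := hg.1.smooth.continuous
      fun_prop
    have h3 := (hc.tendsto 0).comp hs0
    have e : gam (b j) g 0 - b j = 0 := by rw [gam_zero hg.1.zero, sub_self]
    rw [e] at h3
    exact h3
  have hmem : ∀ᶠ n : ℕ in atTop, gam (b j) g (1 / ((n : ℝ) + 1)) - b j ∈ SD B j ρ := by
    filter_upwards [hw.eventually (Metric.ball_mem_nhds 0 hρ)] with n hn
    refine ⟨hn, mem_Sb_of_re ?_⟩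
    rw [sub_re, gam_re]
    have : (0 : ℝ) < 1 / ((n : ℝ) + 1) := by positivity
    intro h
    linarith
  have hlim : Tendsto (fun n : ℕ => P k B b (gam (b j) g (1 / ((n : ℝ) + 1)))) atTop
      (𝓝 (P k B b (b j))) := by
    have := tendsto_PG (hI _ hg)
    rw [hE _ _ hg hs]
    refine this.congr' ?_
    filter_upwards [hmem] with n hn
    refine (hE _ _ (adm_shg hg (by positivity)) (SR.of_ne fun l => ?_)).symm
    have := hnr _ hn l
    rwa [add_sub_cancel] at this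
  have hcont : ContinuousAt G 0 := by
    have := hG 0 (Metric.mem_ball_self hρ)
    have e : br B j 0 = 0 := by
      have := br_mul_self B j 0
      simpa using this
    rw [e] at this
    exact this.continuousAt
  have hlim2 : Tendsto (fun n : ℕ => P k B b (gam (b j) g (1 / ((n : ℝ) + 1))) -
      G (br B j (gam (b j) g (1 / ((n : ℝ) + 1)) - b j))) atTop (𝓝 (P k B b (b j) - 0)) := by
    refine hlim.sub ?_
    have h3 : Tendsto (fun n : ℕ => br B j (gam (b j) g (1 / ((n : ℝ) + 1)) - b j)) atTop (𝓝 0) :=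
      (tendsto_br_zero B j).comp hw
    have h4 := hcont.tendsto.comp h3
    rw [hG0] at h4
    exact h4
  have hea : a = P k B b (b j) := by
    have h3 : Tendsto (fun n : ℕ => P k B b (gam (b j) g (1 / ((n : ℝ) + 1))) -
        G (br B j (gam (b j) g (1 / ((n : ℝ) + 1)) - b j))) atTop (𝓝 a) := by
      refine (tendsto_congr' ?_).2 tendsto_const_nhds
      filter_upwards [hmem] with n hn
      have := ha _ hn
      simp only [add_sub_cancel] at this
      exact this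
    have := tendsto_nhds_unique h3 hlim2
    rw [this, sub_zero]
  intro w hw
  have h3 := ha w hw
  rw [hea] at h3
  linear_combination h3

/-- the open conditions on `(b, w)` near `(b₀, 0)` -/
def Nr (b₀ : C6) (j : Fin 6) (b : C6) (w : ℂ) : Prop :=
  (∀ l, ((b₀ l).re < (b₀ j).re → (b l).re < (b j + w).re) ∧
      ((b₀ j).re < (b₀ l).re → (b j + w).re < (b l).re) ∧
      ((b₀ l).im < (b₀ j).im → (b l).im < (b j + w).im) ∧
      ((b₀ j).im < (b₀ l).im → (b j + w).im < (b l).im)) ∧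
    ∀ l m, ((b₀ l).re < (b₀ m).re → (b l).re < (b m).re) ∧
      ((b₀ l).im < (b₀ m).im → (b l).im < (b m).im)

theorem nr_eventually (b₀ : C6) (j : Fin 6) : ∀ᶠ p : C6 × ℂ in 𝓝 (b₀, 0), Nr b₀ j p.1 p.2 := by
  have key : ∀ {u v : C6 × ℂ → ℝ}, Continuous u → Continuous v → (u (b₀, 0) < v (b₀, 0)) →
      ∀ᶠ p in 𝓝 (b₀, (0 : ℂ)), u p < v p := fun hu hv h =>
    (hu.tendsto _).eventually_lt (hv.tendsto _) h
  have c1 : ∀ l, Continuous fun p : C6 × ℂ => (p.1 l).re := fun l => by fun_prop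
  have c2 : ∀ l, Continuous fun p : C6 × ℂ => (p.1 l).im := fun l => by fun_prop
  have c3 : Continuous fun p : C6 × ℂ => (p.1 j + p.2).re := by fun_prop
  have c4 : Continuous fun p : C6 × ℂ => (p.1 j + p.2).im := by fun_prop
  unfold Nr
  simp only [Filter.eventually_and, Filter.eventually_all]
  refine ⟨fun l => ⟨fun h => ?_, fun h => ?_, fun h => ?_, fun h => ?_⟩, fun l m =>
    ⟨fun h => ?_, fun h => ?_⟩⟩
  · exact key (c1 l) c3 (by simpa using h)
  · exact key c3 (c1 l) (by simpa using h)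
  · exact key (c2 l) c4 (by simpa using h)
  · exact key c4 (c2 l) (by simpa using h)
  · exact key (c1 l) (c1 m) h
  · exact key (c2 l) (c2 m) h

variable {b₀ : C6} {w : ℂ}

theorem Nr.ne_root (h : Nr b₀ j b w) (hne : ∀ l, l ≠ j → b₀ l ≠ b₀ j) (hw : w ≠ 0) (l : Fin 6) :
    b l ≠ b j + w := by
  intro e
  rcases eq_or_ne l j with rfl | hl
  · exact hw (by simpa using e)
  obtain ⟨h1, h2, h3, h4⟩ := h.1 l
  rw [e] at h1 h2 h3 h4
  rcases lt_trichotomy (b₀ l).re (b₀ j).re with h5 | h5 | h5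
  · exact lt_irrefl _ (h1 h5)
  · rcases lt_trichotomy (b₀ l).im (b₀ j).im with h6 | h6 | h6
    · exact lt_irrefl _ (h3 h6)
    · exact hne l hl (Complex.ext h5 h6)
    · exact lt_irrefl _ (h4 h6)
  · exact lt_irrefl _ (h2 h5)

theorem Nr.ne (h : Nr b₀ j b w) (hne : ∀ l, l ≠ j → b₀ l ≠ b₀ j) (l : Fin 6) (hl : l ≠ j) :
    b l ≠ b j := by
  intro e
  have h1 := h.2 l j
  have h2 := h.2 j l
  rw [e] at h1 h2
  rcases lt_trichotomy (b₀ l).re (b₀ j).re with h5 | h5 | h5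
  · exact lt_irrefl _ (h1.1 h5)
  · rcases lt_trichotomy (b₀ l).im (b₀ j).im with h6 | h6 | h6
    · exact lt_irrefl _ (h1.2 h6)
    · exact hne l hl (Complex.ext h5 h6)
    · exact lt_irrefl _ (h2.2 h6)
  · exact lt_irrefl _ (h2.1 h5)

theorem Nr.ok (h : Nr b₀ j b w) (hok : OK B b₀ (b₀ j)) (hne : ∀ l, l ≠ j → b₀ l ≠ b₀ j)
    (hw : w ∈ Sb B j ∨ w = 0) : OK B b (b j + w) := by
  refine ⟨fun l hl m hm e hx => ?_, fun l hl e => ?_⟩
  · -- real parts at `b₀` agree
    have e0 : (b₀ l).re = (b₀ m).re := by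
      by_contra h1
      rcases lt_or_gt_of_ne h1 with h2 | h2
      · exact absurd e (ne_of_lt ((h.2 l m).1 h2))
      · exact absurd e.symm (ne_of_lt ((h.2 m l).1 h2))
    have h2 : ¬(b₀ l).re < (b₀ j).re := fun h3 => lt_asymm hx ((h.1 l).1 h3)
    rcases lt_or_eq_of_le (not_lt.1 h2) with h3 | h3
    · exact (h.2 m l).2 (hok.1 l hl m hm e0 h3)
    · have h4 : l = j ∨ (b₀ j).im < (b₀ l).im := by
        rcases eq_or_ne l j with h4 | h4
        · exact Or.inl h4
        · exact Or.inr ((hok.2 l (hne l h4) h3.symm).1 hl)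
      have h5 : m = j ∨ (b₀ m).im < (b₀ j).im := by
        rcases eq_or_ne m j with h5 | h5
        · exact Or.inl h5
        · exact Or.inr ((hok.2 m (hne m h5) (by rw [← e0, h3])).2 hm)
      refine (h.2 m l).2 ?_
      rcases h4 with h4 | h4
      · rcases h5 with h5 | h5
        · rw [h4] at hl; rw [h5] at hm; exact absurd hl hm
        · rw [h4]; exact h5
      · rcases h5 with h5 | h5
        · rw [h5]; exact h4
        · exact h5.trans h4
  · rcases eq_or_ne l j with rfl | hlj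
    · rcases hw with hw | rfl
      · rw [add_re] at e
        have h0 : w.re = 0 := by linarith
        obtain ⟨h1, h2⟩ := (mem_Sb_iff.1 hw) h0
        rw [add_im]
        exact ⟨fun h => by linarith [h1 h], fun h => by linarith [h2 h]⟩
      · exact absurd (by simp) hl
    · have e0 : (b₀ l).re = (b₀ j).re := by
        by_contra h1
        rcases lt_or_gt_of_ne h1 with h2 | h2
        · exact absurd e (ne_of_lt ((h.1 l).1 h2))
        · exact absurd e.symm (ne_of_lt ((h.1 l).2.1 h2))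
      obtain ⟨h1, h2⟩ := hok.2 l (hne l hlj) e0
      exact ⟨fun h3 => (h.1 l).2.2.2 (h1 h3), fun h3 => (h.1 l).2.2.1 (h2 h3)⟩

/-- the domain of the factor without the root -/
def Dj (j : Fin 6) (B : Finset (Fin 6)) : Set (C6 × ℂ) :=
  {p | ∀ l, l ≠ j → p.1 j + p.2 - p.1 l ∈ Sb B l}

theorem isOpen_Dj (j : Fin 6) (B : Finset (Fin 6)) : IsOpen (Dj j B) := by
  have : Dj j B = ⋂ l, {p : C6 × ℂ | l ≠ j → p.1 j + p.2 - p.1 l ∈ Sb B l} := by
    ext p; simp [Dj]
  rw [this]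
  refine isOpen_iInter_of_finite fun l => ?_
  by_cases hl : l = j
  · have : {p : C6 × ℂ | l ≠ j → p.1 j + p.2 - p.1 l ∈ Sb B l} = univ := by
      ext p; simp [hl]
    rw [this]; exact isOpen_univ
  · have : {p : C6 × ℂ | l ≠ j → p.1 j + p.2 - p.1 l ∈ Sb B l} =
        (fun p : C6 × ℂ => p.1 j + p.2 - p.1 l) ⁻¹' Sb B l := by
      ext p; simp [hl]
    rw [this]
    exact (isOpen_Sb B l).preimage (by fun_prop)

/-- the factor without the root -/
def Ph (k : ℕ) (j : Fin 6) (B : Finset (Fin 6)) (p : C6 × ℂ) : ℂ :=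
  (p.1 j + p.2) ^ k / sqj j B p.1 (p.1 j + p.2)

theorem analyticAt_Ph (k : ℕ) {p : C6 × ℂ} (hp : p ∈ Dj j B) : AnalyticAt ℂ (Ph k j B) p := by
  have h1 : AnalyticAt ℂ (fun q : C6 × ℂ => q.1 j + q.2) p :=
    ((ContinuousLinearMap.proj j).comp (ContinuousLinearMap.fst ℂ C6 ℂ) +
      ContinuousLinearMap.snd ℂ C6 ℂ).analyticAt _
  refine (h1.pow k).div ?_ ?_
  · unfold sqj
    refine Finset.analyticAt_fun_prod _ fun l hl => ?_
    have hl' : l ≠ j := (Finset.mem_erase.1 hl).1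
    have h2 : AnalyticAt ℂ (fun q : C6 × ℂ => q.1 l) p :=
      ((ContinuousLinearMap.proj l).comp (ContinuousLinearMap.fst ℂ C6 ℂ)).analyticAt _
    exact (analyticAt_br (hp l hl')).comp_of_eq (h1.sub h2) rfl
  · rw [sqj, Finset.prod_ne_zero_iff]
    intro l hl
    exact br_ne_zero (Sb_ne_zero (hp l (Finset.mem_erase.1 hl).1))

theorem exists_ball (hok : OK B b₀ (b₀ j)) (hne : ∀ l, l ≠ j → b₀ l ≠ b₀ j) :
    ∃ ε > 0, Metric.ball (b₀, (0 : ℂ)) ε ⊆ Dj j B := by
  refine Metric.isOpen_iff.1 (isOpen_Dj j B) _ fun l hl => ?_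
  rw [add_zero]
  exact sub_mem_Sb hok hne hl

theorem mem_ball_prod {ε : ℝ} : (b, w) ∈ Metric.ball (b₀, (0 : ℂ)) ε ↔ dist b b₀ < ε ∧ ‖w‖ < ε := by
  rw [Metric.mem_ball, Prod.dist_eq, max_lt_iff, dist_zero_right]

theorem shrink_mem {ε : ℝ} {p : C6 × ℂ} (hp : p ∈ Metric.ball (b₀, (0 : ℂ)) ε) {r : ℝ}
    (hr : r ∈ Icc (0 : ℝ) 1) : (p.1, p.2 * (r : ℂ) ^ 2) ∈ Metric.ball (b₀, (0 : ℂ)) ε := by
  obtain ⟨h1, h2⟩ := mem_ball_prod.1 (show (p.1, p.2) ∈ _ from hp)
  refine mem_ball_prod.2 ⟨h1, ?_⟩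
  rw [norm_mul, norm_pow, norm_real, Real.norm_eq_abs, abs_of_nonneg hr.1]
  have h3 : r ^ 2 ≤ 1 := pow_le_one₀ hr.1 hr.2
  calc ‖p.2‖ * r ^ 2 ≤ ‖p.2‖ * 1 := by gcongr
    _ < ε := by rw [mul_one]; exact h2

theorem analyticOnNhd_Er (k : ℕ) {ε : ℝ} (hε : Metric.ball (b₀, (0 : ℂ)) ε ⊆ Dj j B) :
    AnalyticOnNhd ℂ (fun p : C6 × ℂ => Er k j B p.1 p.2) (Metric.ball (b₀, (0 : ℂ)) ε) := by
  have hfun : (fun p : C6 × ℂ => Er k j B p.1 p.2) = fun p : C6 × ℂ =>
      ∫ r in (0 : ℝ)..1, 2 * Ph k j B (p.1, p.2 * (r : ℂ) ^ 2) := by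
    funext p
    unfold Er Ph
    refine intervalIntegral.integral_congr fun r _ => ?_
    simp only [mul_div_assoc]
  rw [hfun]
  refine H604.analyticOnNhd_intervalIntegral Metric.isOpen_ball zero_le_one
    (f := fun (p : C6 × ℂ) (r : ℝ) => 2 * Ph k j B (p.1, p.2 * (r : ℂ) ^ 2)) ?_ ?_
  · have h1 : ContinuousOn (Ph k j B) (Metric.ball (b₀, (0 : ℂ)) ε) := fun p hp =>
      (analyticAt_Ph k (hε hp)).continuousAt.continuousWithinAt
    have h2 : ContinuousOn (fun q : (C6 × ℂ) × ℝ => Ph k j B (q.1.1, q.1.2 * (q.2 : ℂ) ^ 2))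
        (Metric.ball (b₀, (0 : ℂ)) ε ×ˢ Icc (0 : ℝ) 1) := by
      refine h1.comp (f := fun q : (C6 × ℂ) × ℝ => (q.1.1, q.1.2 * (q.2 : ℂ) ^ 2)) ?_ ?_
      · have : Continuous fun q : (C6 × ℂ) × ℝ => (q.1.1, q.1.2 * (q.2 : ℂ) ^ 2) := by fun_prop
        exact this.continuousOn
      · intro q hq
        exact shrink_mem hq.1 hq.2
    exact continuousOn_const.mul h2
  · intro r hr p hp
    have h1 := (analyticAt_Ph k (hε (shrink_mem hp hr))).differentiableAt
    have h2 : DifferentiableAt ℂ (fun q : C6 × ℂ => (q.1, q.2 * (r : ℂ) ^ 2)) p := by fun_prop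
    exact ((h1.comp p h2).const_mul 2).differentiableWithinAt

/-- the primitive in the coordinate `v` is `v * Er b (v ^ 2)` -/
theorem exists_G_Er (k : ℕ) {ε : ℝ} (hε : Metric.ball (b₀, (0 : ℂ)) ε ⊆ Dj j B)
    (hb : dist b b₀ < ε) : ∃ G : ℂ → ℂ, G 0 = 0 ∧
      (∀ v ∈ Metric.ball (0 : ℂ) (Real.sqrt ε),
        HasDerivAt G (2 * ((b j + v ^ 2) ^ k / sqj j B b (b j + v ^ 2))) v) ∧
      ∀ v ∈ Metric.ball (0 : ℂ) (Real.sqrt ε), G v = v * Er k j B b (v ^ 2) := by
  have hsq : ∀ v ∈ Metric.ball (0 : ℂ) (Real.sqrt ε), (b, v ^ 2) ∈ Dj j B := by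
    intro v hv
    refine hε (mem_ball_prod.2 ⟨hb, ?_⟩)
    rw [mem_ball_zero_iff] at hv
    rw [norm_pow]
    exact (Real.lt_sqrt (norm_nonneg _)).1 hv
  have hPh : ∀ v ∈ Metric.ball (0 : ℂ) (Real.sqrt ε), DifferentiableAt ℂ
      (fun v : ℂ => 2 * ((b j + v ^ 2) ^ k / sqj j B b (b j + v ^ 2))) v := by
    intro v hv
    have h1 := (analyticAt_Ph k (hsq v hv)).differentiableAt
    have h2 : DifferentiableAt ℂ (fun v : ℂ => (b, v ^ 2)) v := by fun_prop
    exact (h1.comp v h2).const_mul 2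
  have h5 : DifferentiableOn ℂ
      (fun v : ℂ => 2 * ((b j + v ^ 2) ^ k / sqj j B b (b j + v ^ 2)))
      (Metric.ball 0 (Real.sqrt ε)) := fun v hv => (hPh v hv).differentiableWithinAt
  obtain ⟨G, hG0, hG⟩ := h5.isExactOn_ball.with_val_at 0 0
  refine ⟨G, hG0, hG, fun v hv => ?_⟩
  have hmem : ∀ r ∈ uIcc (0 : ℝ) 1, (r : ℂ) * v ∈ Metric.ball (0 : ℂ) (Real.sqrt ε) := by
    intro r hr
    rw [uIcc_of_le zero_le_one] at hr
    rw [mem_ball_zero_iff] at hv ⊢
    rw [norm_mul, norm_real, Real.norm_eq_abs, abs_of_nonneg hr.1]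
    calc r * ‖v‖ ≤ 1 * ‖v‖ := by gcongr; exact hr.2
      _ < _ := by rw [one_mul]; exact hv
  have h6 : ∀ r ∈ uIcc (0 : ℝ) 1, HasDerivAt (fun r : ℝ => G ((r : ℂ) * v))
      (2 * ((b j + ((r : ℂ) * v) ^ 2) ^ k / sqj j B b (b j + ((r : ℂ) * v) ^ 2)) * v) r := by
    intro r hr
    have h7 := hG _ (hmem r hr)
    have h8 : HasDerivAt (fun s : ℂ => s * v) v (r : ℂ) := by
      simpa using (hasDerivAt_id (r : ℂ)).mul_const v
    exact (h7.comp (r : ℂ) h8).comp_ofReal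
  have h7 : ContinuousOn (fun r : ℝ =>
      2 * ((b j + ((r : ℂ) * v) ^ 2) ^ k / sqj j B b (b j + ((r : ℂ) * v) ^ 2)) * v)
      (uIcc (0 : ℝ) 1) := by
    intro r hr
    have h8 := (hPh _ (hmem r hr)).continuousAt
    have h9 : ContinuousAt (fun r : ℝ => (r : ℂ) * v) r := by fun_prop
    have h10 := (ContinuousAt.comp (f := fun r : ℝ => (r : ℂ) * v) (x := r) h8 h9).mul
      (continuousAt_const (y := v))
    exact h10.continuousWithinAt
  have h8 := intervalIntegral.integral_eq_sub_of_hasDerivAt h6 h7.intervalIntegrable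
  rw [ofReal_one, one_mul, ofReal_zero, zero_mul, hG0, sub_zero] at h8
  rw [← h8, Er, ← intervalIntegral.integral_const_mul]
  refine intervalIntegral.integral_congr fun r _ => ?_
  have e : (b j + ((r : ℂ) * v) ^ 2) = b j + v ^ 2 * (r : ℂ) ^ 2 := by ring
  simp only [e]
  ring

/-- **row GP-ROOT on the natural set** -/
theorem stmROOTn (hE : StmEX) (hI : StmINVn) (hH : StmHOLn) : StmROOTn := by
  intro k B b₀ j hk hne hok hj
  obtain ⟨ε, hε0, hε⟩ := exists_ball hok hne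
  refine ⟨analyticOnNhd_Er k hε _ (Metric.mem_ball_self hε0), ?_⟩
  obtain ⟨ρ₁, hρ₁, h1⟩ := Metric.eventually_nhds_iff_ball.1 (nr_eventually b₀ j)
  have hρ : 0 < min ρ₁ ε := lt_min hρ₁ hε0
  filter_upwards [Metric.ball_mem_nhds (b₀, (0 : ℂ)) hρ] with p hp
  obtain ⟨b, w⟩ := p
  obtain ⟨hb, hw⟩ := mem_ball_prod.1 hp
  have hN : ∀ w' : ℂ, ‖w'‖ < min ρ₁ ε → Nr b₀ j b w' := fun w' hw' =>
    h1 (b, w') (mem_ball_prod.2 ⟨hb.trans_le (min_le_left _ _), hw'.trans_le (min_le_left _ _)⟩)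
  have hneb : ∀ l, l ≠ j → b l ≠ b j := (hN w hw).ne hne
  have hs : SR b (b j) := SR.of_root hneb
  obtain ⟨G, hG0, hG, hGE⟩ := exists_G_Er (b := b) k hε (hb.trans_le (min_le_right _ _))
  have hbr : ∀ (B' : Finset (Fin 6)) (w' : ℂ), ‖w'‖ < min ρ₁ ε →
      br B' j w' ∈ Metric.ball (0 : ℂ) (Real.sqrt ε) := by
    intro B' w' hw'
    rw [mem_ball_zero_iff, norm_br]
    exact Real.sqrt_lt_sqrt (norm_nonneg _) (hw'.trans_le (min_le_right _ _))
  have main : ∀ B' : Finset (Fin 6), OK B' b₀ (b₀ j) → sqj j B' b = sqj j B b →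
      ∀ w ∈ SD B' j (min ρ₁ ε),
        P k B' b (b j + w) = P k B' b (b j) + br B' j w * Er k j B b w := by
    intro B' hok' hsq w hw
    have hwn : ‖w‖ < min ρ₁ ε := mem_ball_zero_iff.1 hw.1
    have h2 := root_struct_ball (k := k) (B := B') (b := b) (j := j) hρ
      (fun w hw => (hN w (mem_ball_zero_iff.1 hw.1)).ok hok' hne (Or.inl hw.2))
      (fun w hw => (hN w (mem_ball_zero_iff.1 hw.1)).ne_root hne (Sb_ne_zero hw.2))
      (fun x hx hr => (hH k B' b x hk hr hx).2)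
      (fun x g hg hs => P_eq hI hk hs hg) hs (hI k B' b (b j) hk hs).1
      (hE B' b (b j) (by
        have := (hN 0 (by rw [norm_zero]; exact hρ)).ok hok' hne (Or.inr rfl)
        rwa [add_zero] at this)) hG0
      (fun w hw => by
        rw [hsq]
        exact hG _ (hbr B' w (mem_ball_zero_iff.1 hw))) w hw
    rw [h2, hGE _ (hbr B' w hwn), pow_two, br_mul_self]
  have hok0 : OK B b (b j) := by
    have := (hN 0 (by rw [norm_zero]; exact hρ)).ok hok hne (Or.inr rfl)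
    rwa [add_zero] at this
  have hroot : P k (insert j B) b (b j) = P k B b (b j) := by
    obtain ⟨g, hg⟩ := hE B b (b j) hok0
    rw [P_eq hI hk hs hg, P_eq hI hk hs ((adm_insert b j g B).2 hg), PG_insert k hj]
  refine ⟨fun h => ?_, fun h => ?_⟩
  · have h2 := main B hok rfl w ⟨mem_ball_zero_iff.2 hw, by rw [Sb_of_notMem hj]; exact h⟩
    rw [br_of_notMem hj] at h2
    exact h2
  · have h2 := main (insert j B) (ok_insert b₀ j B hok) (sqj_insert j B b) w
      ⟨mem_ball_zero_iff.2 hw, by rw [Sb_insert_self]; exact h⟩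
    rw [br_insert_self, hroot] at h2
    exact h2

theorem stmROOT (hE : StmEX) (hI : StmINVn) (hH : StmHOLn) : StmROOT := (stmROOTn hE hI hH).inj

end

end Vale.Agent.P273.H340
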